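import Vale.Agent.P113.R2.H813.Uniq
import Vale.Agent.P113.R2.Defs

open MeasureTheory Set

namespace Vale.Agent.P113.R2.H813

/-- A function on the space that is 1-periodic in each coordinate direction is invariant under
integer vectors. -/
theorem per_int {α : Type*} {g : V → α} (h : ∀ x i, g (x + Pi.single i 1) = g x) (x : V)
    (k : Fin 3 → ℤ) : g (fun i => x i + k i) = g x := by
  have h1 : ∀ (i : Fin 3) (n : ℤ) (y : V), g (y + Pi.single i (n : ℝ)) = g y := by
    intro i n
    induction n using Int.induction_on with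
    | zero => intro y; simp
    | succ n ih =>
      intro y
      have : y + Pi.single i (((n : ℤ) + 1 : ℤ) : ℝ) = (y + Pi.single i ((n : ℤ) : ℝ)) + Pi.single i 1 := by
        rw [add_assoc, ← Pi.single_add]; push_cast; rfl
      rw [this, h, ih]
    | pred n ih =>
      intro y
      have : (y + Pi.single i ((-(n : ℤ) - 1 : ℤ) : ℝ)) + Pi.single i 1 = y + Pi.single i ((-(n : ℤ) : ℤ) : ℝ) := by
        rw [add_assoc, ← Pi.single_add]; push_cast; congr 2; ring
      rw [← h, this, ih]
  have h2 : (fun i => x i + (k i : ℝ)) = ((x + Pi.single 0 (k 0 : ℝ)) + Pi.single 1 (k 1 : ℝ))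
      + Pi.single 2 (k 2 : ℝ) := by
    funext i
    fin_cases i <;> simp [Pi.single_apply]
  rw [h2, h1, h1, h1]

/-- A continuous nonnegative periodic function with integral zero over the cube is zero. -/
theorem zero_of_integral {g : V → ℝ} (hc : Continuous g) (h0 : ∀ x, 0 ≤ g x)
    (hp : ∀ x i, g (x + Pi.single i 1) = g x) (hi : ∫ x in Icc (0 : V) 1, g x = 0) (x : V) :
    g x = 0 := by
  have h1 : g =ᵐ[volume.restrict (Icc (0 : V) 1)] 0 :=
    (integral_eq_zero_iff_of_nonneg h0 hc.integrableOn_Icc).1 hi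
  have h2 : EqOn g 0 (Icc (0 : V) 1) := by
    apply Measure.eqOn_of_ae_eq (μ := volume) h1 hc.continuousOn continuousOn_const
    have h3 : Icc (0 : V) 1 = Set.pi univ fun _ => Icc (0 : ℝ) 1 := by
      rw [← pi_univ_Icc]; rfl
    rw [h3, interior_pi_set finite_univ, closure_pi_set]
    simp
  have h4 := per_int hp x fun i => -⌊x i⌋
  rw [← h4]
  apply h2
  constructor
  · intro i; simp only [Int.cast_neg, Pi.zero_apply]
    have := Int.floor_le (x i); linarith
  · intro i; simp only [Int.cast_neg, Pi.one_apply]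
    have := Int.lt_floor_add_one (x i); linarith

namespace CS

variable {ν : ℝ} {f : ℝ → V → V} {T : ℝ} {u : ℝ → V → V} {p : ℝ → V → ℝ}
  {ut : ℝ → V → V} {Du DDu : Fin 3 → ℝ → V → V} {Dp : Fin 3 → ℝ → V → ℝ}
  {v : ℝ → V → V} {q : ℝ → V → ℝ}
  {vt : ℝ → V → V} {Dv DDv : Fin 3 → ℝ → V → V} {Dq : Fin 3 → ℝ → V → ℝ}

theorem eq_velocity (h : CS ν f T u p ut Du DDu Dp) (k : CS ν f T v q vt Dv DDv Dq)
    (hν : 0 ≤ ν) {t : ℝ} (ht : t ∈ Icc 0 T) (x : V) : u t x = v t x := by
  have cu := slice h.cu ht
  have cv := slice k.cu ht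
  have h1 := zero_of_integral (g := fun x => ∑ j, (u t x j - v t x j) ^ 2) (by fun_prop)
    (fun x => Finset.sum_nonneg fun j _ => sq_nonneg _)
    (fun x i => by simp only [h.pu t ht, k.pu t ht]) (energy_zero h k hν ht) x
  funext j
  have h2 := (Finset.sum_eq_zero_iff_of_nonneg fun j _ => sq_nonneg (u t x j - v t x j)).1 h1 j
    (Finset.mem_univ j)
  have h3 : u t x j - v t x j = 0 := by simpa using h2
  linarith

theorem eq_pressure (h : CS ν f T u p ut Du DDu Dp) (k : CS ν f T v q vt Dv DDv Dq)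
    (hν : 0 ≤ ν) (hT : 0 < T) {t : ℝ} (ht : t ∈ Icc 0 T) (x : V) : p t x = q t x := by
  have hu : ∀ s ∈ Icc 0 T, ∀ y, u s y = v s y := fun s hs y => eq_velocity h k hν hs y
  have hut : ∀ y, ut t y = vt t y := fun y =>
    (uniqueDiffOn_Icc hT t ht).eq_deriv _ (h.dt t ht y)
      ((k.dt t ht y).congr (fun s hs => hu s hs y) (hu t ht y))
  have hDu : ∀ i y, Du i t y = Dv i t y := fun i y =>
    (h.dx t ht y i).unique ((k.dx t ht y i).congr_of_eventuallyEq
      (Filter.Eventually.of_forall fun s => hu t ht _))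
  have hDDu : ∀ i y, DDu i t y = DDv i t y := fun i y =>
    (h.dxx t ht y i).unique ((k.dxx t ht y i).congr_of_eventuallyEq
      (Filter.Eventually.of_forall fun s => hDu i _))
  have hDp : ∀ j y, Dp j t y = Dq j t y := by
    intro j y
    have e1 := h.eqn t ht y j
    have e2 := k.eqn t ht y j
    simp only [hut, hDu, hDDu, hu t ht] at e1
    linarith
  set r : V → ℝ := fun y => p t y - q t y with hr
  have hder : ∀ (i : Fin 3) (y : V), HasDerivAt (fun s : ℝ => r (y + Pi.single i s)) 0 0 := by
    intro i y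
    have := (h.dp t ht y i).sub (k.dp t ht y i)
    rw [hDp, sub_self] at this
    exact this
  have hline : ∀ (i : Fin 3) (y : V) (s : ℝ), r (y + Pi.single i s) = r y := by
    intro i y s
    have h1 : ∀ s : ℝ, HasDerivAt (fun s : ℝ => r (y + Pi.single i s)) 0 s := by
      intro s
      have h2 := hder i (y + Pi.single i s)
      have h3 := HasDerivAt.comp_sub_const (f := fun s' : ℝ =>
        r ((y + Pi.single i s) + Pi.single i s')) (x := s) (a := s) (f' := 0) (by simpa using h2)
      refine h3.congr_of_eventuallyEq (Filter.Eventually.of_forall fun s' => ?_)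
      show r _ = r _
      rw [add_assoc, ← Pi.single_add]; simp
    have h4 := is_const_of_deriv_eq_zero (f := fun s : ℝ => r (y + Pi.single i s))
      (fun s => (h1 s).differentiableAt) (fun s => (h1 s).deriv) s 0
    simpa using h4
  have hconst : ∀ y, r y = r 0 := by
    intro y
    have h2 : y = ((0 + Pi.single 0 (y 0)) + Pi.single 1 (y 1)) + Pi.single 2 (y 2) := by
      funext i
      fin_cases i <;> simp [Pi.single_apply]
    rw [h2, hline, hline, hline]
  have hint : ∫ y in Icc (0 : V) 1, r y = 0 := by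
    have c1 := slice h.cp ht
    have c2 := slice k.cp ht
    simp only [hr]
    rw [integral_sub c1.integrableOn_Icc c2.integrableOn_Icc, h.mean t ht, k.mean t ht, sub_zero]
  have hr0 : r 0 = 0 := by
    simp only [hconst] at hint
    have hv : volume.real (Icc (0 : V) 1) = 1 := by
      simp [measureReal_def, Real.volume_Icc_pi]
    rw [setIntegral_const, hv, one_smul] at hint
    exact hint
  have := hconst x
  rw [hr0] at this
  simp only [hr] at this
  linarith

end CS

theorem hasPD_add {E : Type} [NormedAddCommGroup E] [NormedSpace ℝ E] {i : Fin 3} {g g' : V → E}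
    (h : HasPD i g g') (x : V) : HasDerivAt (fun s : ℝ => g (x + Pi.single i s)) (g' x) 0 := by
  have h1 : HasDerivAt (fun s : ℝ => g (Function.update x i s)) (g' x) (0 + x i) := by
    rw [zero_add]; exact h x
  have h2 := HasDerivAt.comp_add_const (x := (0:ℝ)) (a := x i) h1
  refine h2.congr_of_eventuallyEq (Filter.Eventually.of_forall fun s => ?_)
  show g _ = g _
  congr 1
  funext j
  rcases eq_or_ne j i with rfl | hj
  · simp [add_comm]
  · simp [hj]

theorem exists_CS {ν T : ℝ} {f u : ℝ → V → V} {p : ℝ → V → ℝ} (h : IsClassical ν T f u p) :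
    ∃ ut Du DDu Dp, CS ν f T u p ut Du DDu Dp := by
  obtain ⟨ut, du, ddu, dp, ⟨c1, c2, c3, c4, p1, d1, d2, d3⟩, ⟨c5, c6, p2, d4, m⟩, e, dv, i0⟩ := h
  have hp1 : ∀ {α : Type} {g : V → α}, Periodic3 g → ∀ x i, g (x + Pi.single i 1) = g x := by
    intro α g hg x i
    have := hg x (Pi.single i 1)
    rw [← this]
    congr 1
    funext j
    rcases eq_or_ne j i with rfl | hj
    · simp
    · simp [hj]
  exact ⟨ut, du, fun i => ddu i i, dp,
    { cu := c1, cut := c2, cDu := c3, cDDu := fun i => c4 i i, cp := c5, cDp := c6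
      pu := fun t ht => hp1 (p1 t ht), pp := fun t ht => hp1 (p2 t ht)
      dt := d1, dx := fun t ht x i => hasPD_add (d2 t ht i) x
      dxx := fun t ht x i => hasPD_add (d3 t ht i i) x
      dp := fun t ht x i => hasPD_add (d4 t ht i) x
      div := dv, eqn := e, mean := m, init := i0 }⟩

/-- Uniqueness of classical solutions on `[0, T]`. -/
theorem classical_unique {ν T : ℝ} (hν : 0 ≤ ν) (hT : 0 < T) {f u v : ℝ → V → V}
    {p q : ℝ → V → ℝ} (h : IsClassical ν T f u p) (k : IsClassical ν T f v q) :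
    ∀ t ∈ Icc 0 T, v t = u t ∧ q t = p t := by
  obtain ⟨_, _, _, _, h⟩ := exists_CS h
  obtain ⟨_, _, _, _, k⟩ := exists_CS k
  intro t ht
  exact ⟨funext fun x => (CS.eq_velocity h k hν ht x).symm,
    funext fun x => (CS.eq_pressure h k hν hT ht x).symm⟩

end Vale.Agent.P113.R2.H813
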