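import Vale.Agent.P113.R2.Defs

/-! Analysis of the functions `rho`, `kappa`, `sigma`, `plat`, `per`. -/

namespace Vale.Agent.P113

open MeasureTheory Set

theorem rho_eq_glue (s : ℝ) : rho s = expNegInvGlue (1 - s ^ 2) := by
  unfold rho expNegInvGlue
  by_cases h : |s| < 1
  · have h1 : s ^ 2 < 1 := by rw [← sq_abs]; nlinarith [abs_nonneg s]
    rw [if_pos h, if_neg (by linarith)]
    congr 1
    rw [neg_div, one_div]
  · have h1 : 1 ≤ s ^ 2 := by rw [← sq_abs]; nlinarith [not_lt.1 h]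
    rw [if_neg h, if_pos (by linarith)]

theorem rho_contDiff : ContDiff ℝ (⊤ : ℕ∞) rho := by
  have h : rho = fun s => expNegInvGlue (1 - s ^ 2) := funext rho_eq_glue
  rw [h]
  exact expNegInvGlue.contDiff.comp (by fun_prop)

theorem rho_continuous : Continuous rho := rho_contDiff.continuous

theorem rho_eq_zero {s : ℝ} (hs : 1 ≤ |s|) : rho s = 0 := by
  unfold rho; rw [if_neg (not_lt.2 hs)]

theorem rho_nonneg (s : ℝ) : 0 ≤ rho s := by
  unfold rho; split_ifs
  · exact (Real.exp_pos _).le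
  · exact le_rfl

theorem rho_pos {s : ℝ} (hs : |s| < 1) : 0 < rho s := by
  unfold rho; rw [if_pos hs]; exact Real.exp_pos _

theorem rho_compact : HasCompactSupport rho := by
  apply HasCompactSupport.of_support_subset_isCompact (isCompact_Icc (a := (-1 : ℝ)) (b := 1))
  intro s hs
  by_contra h
  apply hs
  apply rho_eq_zero
  by_contra h1
  exact h (abs_le.1 (not_le.1 h1).le)

theorem rho_integrable : Integrable rho := rho_continuous.integrable_of_hasCompactSupport rho_compact

theorem kappa_pos : 0 < kappa := by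
  unfold kappa
  apply rho_continuous.integral_pos_of_hasCompactSupport_nonneg_nonzero rho_compact rho_nonneg
    (x := 0)
  exact (rho_pos (by simp)).ne'

theorem sigma_eq (a s : ℝ) : sigma s = sigma a + ∫ r in a..s, rho r := by
  unfold sigma
  rw [← intervalIntegral.integral_Iic_sub_Iic rho_integrable.integrableOn
    rho_integrable.integrableOn]
  ring

theorem sigma_hasDerivAt (s : ℝ) : HasDerivAt sigma (rho s) s := by
  have h : sigma = fun r => sigma 0 + ∫ x in (0:ℝ)..r, rho x := funext fun r => sigma_eq 0 r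
  rw [h]
  apply HasDerivAt.const_add
  exact intervalIntegral.integral_hasDerivAt_right (rho_continuous.intervalIntegrable _ _)
    rho_continuous.stronglyMeasurable.stronglyMeasurableAtFilter rho_continuous.continuousAt

theorem sigma_contDiff : ContDiff ℝ (⊤ : ℕ∞) sigma := by
  have hd : deriv sigma = rho := funext fun s => (sigma_hasDerivAt s).deriv
  have h : ContDiff ℝ ((⊤ : ℕ∞) : WithTop ℕ∞) sigma := by
    rw [contDiff_infty_iff_deriv, hd]
    exact ⟨fun s => (sigma_hasDerivAt s).differentiableAt, rho_contDiff⟩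
  exact h

theorem sigma_of_le {s : ℝ} (hs : s ≤ -1) : sigma s = 0 := by
  unfold sigma
  rw [setIntegral_eq_zero_of_forall_eq_zero]
  intro x hx
  apply rho_eq_zero
  rw [le_abs]; right
  have : x ≤ s := hx
  linarith

theorem sigma_of_ge {s : ℝ} (hs : 1 ≤ s) : sigma s = kappa := by
  unfold sigma kappa
  apply setIntegral_eq_integral_of_forall_compl_eq_zero
  intro x hx
  apply rho_eq_zero
  rw [le_abs]; left
  have : s < x := not_le.1 hx
  linarith

theorem plat_eq_kappa {l s : ℝ} (h1 : 1 ≤ s) (h2 : s ≤ l - 1) : plat l s = kappa := by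
  unfold plat
  rw [sigma_of_ge h1, sigma_of_le (by linarith), sub_zero]

theorem plat_eq_zero {l s : ℝ} (hl : 0 ≤ l) (h : s ≤ -1 ∨ l + 1 ≤ s) : plat l s = 0 := by
  unfold plat
  rcases h with h | h
  · rw [sigma_of_le h, sigma_of_le (by linarith), sub_zero]
  · rw [sigma_of_ge (by linarith), sigma_of_ge (by linarith), sub_self]

theorem plat_contDiff (l : ℝ) : ContDiff ℝ (⊤ : ℕ∞) (plat l) := by
  unfold plat
  exact sigma_contDiff.sub (sigma_contDiff.comp (by fun_prop))

theorem plat_hasDerivAt (l s : ℝ) : HasDerivAt (plat l) (rho s - rho (s - l)) s := by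
  unfold plat
  exact (sigma_hasDerivAt s).sub ((sigma_hasDerivAt (s - l)).comp_sub_const s l)

/-! ### Periodization -/

/-- periodization of a function supported in one period -/
theorem per_eq {g : ℝ → ℝ} (hg : ∀ s, s ≤ 0 ∨ 1 ≤ s → g s = 0) {y : ℝ} (n : ℤ)
    (h1 : n ≤ y) (h2 : y ≤ n + 1) : per g y = g (y - n) := by
  unfold per
  rw [tsum_eq_single (-n)]
  · push_cast; rw [sub_eq_add_neg]
  · intro m hm
    apply hg
    rcases lt_or_gt_of_ne hm with h | h
    · left
      have : (m : ℝ) + 1 ≤ -n := by exact_mod_cast h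
      linarith
    · right
      have : -(n : ℝ) + 1 ≤ m := by exact_mod_cast h
      linarith

theorem per_periodic (g : ℝ → ℝ) (y : ℝ) (k : ℤ) : per g (y + k) = per g y := by
  unfold per
  rw [← (Equiv.addRight (k : ℤ)).tsum_eq (fun m : ℤ => g (y + m))]
  refine tsum_congr fun m => ?_
  simp only [Equiv.coe_addRight]; push_cast
  congr 1; ring

/-- Smooth functions with bounded support. -/
def Nice (g : ℝ → ℝ) : Prop := ContDiff ℝ (⊤ : ℕ∞) g ∧ ∃ R : ℕ, ∀ s, (R : ℝ) ≤ |s| → g s = 0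

theorem per_eq_sum {g : ℝ → ℝ} {R : ℕ} (hg : ∀ s, (R : ℝ) ≤ |s| → g s = 0) (K : ℕ) {y : ℝ}
    (hy : |y| < K) : per g y = ∑ m ∈ Finset.Icc (-(K + R : ℤ)) (K + R), g (y + m) := by
  unfold per
  apply tsum_eq_sum
  intro m hm
  apply hg
  rw [Finset.mem_Icc, not_and_or, not_le, not_le] at hm
  rw [le_abs]
  have h1 := abs_lt.1 hy
  rcases hm with h | h
  · right
    have : (m : ℝ) ≤ -(K + R) := by exact_mod_cast h.le
    linarith
  · left
    have : (K : ℝ) + R ≤ m := by exact_mod_cast h.le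
    linarith

theorem Nice.summable {g : ℝ → ℝ} (h : Nice g) (y : ℝ) : Summable fun m : ℤ => g (y + m) := by
  obtain ⟨_, R, hR⟩ := h
  obtain ⟨K, hK⟩ := exists_nat_gt |y|
  apply summable_of_hasFiniteSupport
  apply (Finset.Icc (-(K + R : ℤ)) (K + R)).finite_toSet.subset
  intro m hm
  by_contra h
  apply hm
  apply hR
  rw [Finset.mem_coe, Finset.mem_Icc, not_and_or, not_le, not_le] at h
  rw [le_abs]
  have h1 := abs_lt.1 hK
  rcases h with h | h
  · right
    have : (m : ℝ) ≤ -(K + R) := by exact_mod_cast h.le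
    linarith
  · left
    have : (K : ℝ) + R ≤ m := by exact_mod_cast h.le
    linarith

theorem Nice.per_contDiff {g : ℝ → ℝ} (h : Nice g) : ContDiff ℝ (⊤ : ℕ∞) (per g) := by
  obtain ⟨hs, R, hR⟩ := h
  rw [contDiff_iff_contDiffAt]
  intro y
  obtain ⟨K, hK⟩ := exists_nat_gt |y|
  have h1 : ContDiffAt ℝ (⊤ : ℕ∞)
      (fun y : ℝ => ∑ m ∈ Finset.Icc (-(K + R : ℤ)) (K + R), g (y + m)) y := by
    apply ContDiffAt.sum
    intro m _
    exact (hs.comp (by fun_prop)).contDiffAt
  apply h1.congr_of_eventuallyEq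
  have h2 : {z : ℝ | |z| < K} ∈ nhds y := (isOpen_lt continuous_abs continuous_const).mem_nhds hK
  filter_upwards [h2] with z hz
  exact per_eq_sum hR K hz

theorem Nice.per_hasDerivAt {g g' : ℝ → ℝ} (h : Nice g) (h' : Nice g')
    (hd : ∀ s, HasDerivAt g (g' s) s) (y : ℝ) : HasDerivAt (per g) (per g' y) y := by
  obtain ⟨hs, R, hR⟩ := h
  obtain ⟨hs', R', hR'⟩ := h'
  obtain ⟨K, hK⟩ := exists_nat_gt |y|
  have hA : ∀ s, ((R + R' : ℕ) : ℝ) ≤ |s| → g s = 0 := fun s h => hR s (by push_cast at h; linarith [(Nat.cast_nonneg R' : (0:ℝ) ≤ R')])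
  have hA' : ∀ s, ((R + R' : ℕ) : ℝ) ≤ |s| → g' s = 0 := fun s h => hR' s (by push_cast at h; linarith [(Nat.cast_nonneg R : (0:ℝ) ≤ R)])
  rw [per_eq_sum hA' K hK]
  have h1 : HasDerivAt
      (fun y : ℝ => ∑ m ∈ Finset.Icc (-(K + (R + R' : ℕ) : ℤ)) (K + (R + R' : ℕ)), g (y + m))
      (∑ m ∈ Finset.Icc (-(K + (R + R' : ℕ) : ℤ)) (K + (R + R' : ℕ)), g' (y + m)) y := by
    apply HasDerivAt.fun_sum
    intro m _
    exact (hd (y + m)).comp_add_const y m
  apply h1.congr_of_eventuallyEq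
  have h2 : {z : ℝ | |z| < K} ∈ nhds y := (isOpen_lt continuous_abs continuous_const).mem_nhds hK
  filter_upwards [h2] with z hz
  exact per_eq_sum hA K hz

theorem Nice.zero : Nice fun _ => 0 := ⟨contDiff_const, 0, fun _ _ => rfl⟩

theorem Nice.add {g h : ℝ → ℝ} (hg : Nice g) (hh : Nice h) : Nice fun s => g s + h s := by
  obtain ⟨a, R, hR⟩ := hg
  obtain ⟨b, S, hS⟩ := hh
  refine ⟨a.add b, R + S, fun s hs => ?_⟩
  push_cast at hs
  show g s + h s = 0
  rw [hR s (by linarith [(Nat.cast_nonneg S : (0:ℝ) ≤ S)]),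
    hS s (by linarith [(Nat.cast_nonneg R : (0:ℝ) ≤ R)]), add_zero]

theorem Nice.const_mul {g : ℝ → ℝ} (c : ℝ) (hg : Nice g) : Nice fun s => c * g s := by
  obtain ⟨a, R, hR⟩ := hg
  exact ⟨contDiff_const.mul a, R, fun s hs => by show c * g s = 0; rw [hR s hs, mul_zero]⟩

theorem per_add {g h : ℝ → ℝ} (hg : Nice g) (hh : Nice h) (y : ℝ) :
    per (fun s => g s + h s) y = per g y + per h y :=
  (hg.summable y).tsum_add (hh.summable y)

theorem per_const_mul (c : ℝ) (g : ℝ → ℝ) (y : ℝ) : per (fun s => c * g s) y = c * per g y :=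
  tsum_mul_left

theorem per_zero (y : ℝ) : per (fun _ => 0) y = 0 := by unfold per; simp

end Vale.Agent.P113
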