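import Vale.Agent.P113.R2.H813.AdmAn

/-! Bumps: smoothness, periodization, derivative as a rational combination of bumps. -/

namespace Vale.Agent.P113

open MeasureTheory Set

/-- A rational number in lowest terms. -/
def Rt.mk' (q : ℚ) : Rt := ⟨q.num, q.den - 1⟩

@[simp] theorem Rt.val_mk' (q : ℚ) : (Rt.mk' q).val = q := by
  unfold Rt.val Rt.mk'
  have h : ((q.den - 1 : ℕ) : ℚ) + 1 = q.den := by
    have := q.den_pos
    rw [Nat.cast_sub (by omega)]; simp
  simp only [h]
  exact Rat.num_div_den q

theorem iteratedDeriv_rho_contDiff (j : ℕ) : ContDiff ℝ (⊤ : ℕ∞) (iteratedDeriv j rho) := by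
  induction j with
  | zero => rw [iteratedDeriv_zero]; exact rho_contDiff
  | succ j ih =>
    rw [iteratedDeriv_succ]
    exact (contDiff_infty_iff_deriv.1 ih).2

theorem iteratedDeriv_rho_hasDerivAt (j : ℕ) (s : ℝ) :
    HasDerivAt (iteratedDeriv j rho) (iteratedDeriv (j + 1) rho s) s := by
  rw [iteratedDeriv_succ]
  exact (((iteratedDeriv_rho_contDiff j).differentiable (by simp)) s).hasDerivAt

theorem iteratedDeriv_rho_zero (j : ℕ) {s : ℝ} (hs : 2 ≤ |s|) : iteratedDeriv j rho s = 0 := by
  have h : ∀ j, ∀ s : ℝ, 1 < |s| → iteratedDeriv j rho s = 0 := by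
    intro j
    induction j with
    | zero => intro s hs; rw [iteratedDeriv_zero]; exact rho_eq_zero hs.le
    | succ j ih =>
      intro s hs
      rw [iteratedDeriv_succ]
      have h1 : iteratedDeriv j rho =ᶠ[nhds s] fun _ => 0 := by
        have h2 : {z : ℝ | 1 < |z|} ∈ nhds s :=
          (isOpen_lt continuous_const continuous_abs).mem_nhds hs
        filter_upwards [h2] with z hz
        exact ih z hz
      rw [h1.deriv_eq]; simp
  exact h j s (by linarith)

/-- A function of the argument `a s - b` with bounded support gives a nice function. -/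
theorem nice_of {h : ℝ → ℝ} (hs : ContDiff ℝ (⊤ : ℕ∞) h) {C : ℝ} (hz : ∀ s, C ≤ |s| → h s = 0)
    (k : ℕ) {a : ℝ} (ha : a ≠ 0) (b : ℝ) : Nice fun s => s ^ k * h (a * s - b) := by
  refine ⟨?_, ?_⟩
  · have := hs
    exact (contDiff_id.pow k).mul (hs.comp (by fun_prop))
  · obtain ⟨R, hR⟩ := exists_nat_gt ((C + |b|) / |a|)
    refine ⟨R, fun s hs => ?_⟩
    show s ^ k * h (a * s - b) = 0
    rw [hz, mul_zero]
    have ha' : 0 < |a| := abs_pos.2 ha
    have h1 : C + |b| < |s| * |a| := (div_lt_iff₀ ha').1 (hR.trans_le hs)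
    have h2 : |a * s| - |b| ≤ |a * s - b| := abs_sub_abs_le_abs_sub _ _
    rw [abs_mul] at h2
    linarith [mul_comm (|s|) (|a|)]

theorem Bump.nice (g : Bump) (hg : g.Valid) : Nice g.eval := by
  obtain ⟨k, a, b, kind⟩ := g
  have ha : (a.val : ℝ) ≠ 0 := by exact_mod_cast hg.1
  cases kind with
  | inl j =>
    exact nice_of (iteratedDeriv_rho_contDiff j) (fun s hs => iteratedDeriv_rho_zero j hs) k ha _
  | inr l =>
    have hl : (0 : ℝ) < l.val := by exact_mod_cast hg.2 l rfl
    refine nice_of (plat_contDiff l.val) (C := (l.val : ℝ) + 1)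
      (fun s hs => plat_eq_zero hl.le ?_) k ha _
    rcases le_abs.1 hs with h | h
    · right; exact h
    · left; linarith

theorem Bump.per_contDiff (g : Bump) (hg : g.Valid) : ContDiff ℝ (⊤ : ℕ∞) (per g.eval) :=
  (g.nice hg).per_contDiff

/-- The value of a rational combination of bumps. -/
noncomputable def combo (L : List (ℚ × Bump)) (s : ℝ) : ℝ :=
  (L.map fun c => (c.1 : ℝ) * c.2.eval s).sum

theorem combo_nil : combo [] = fun _ => 0 := by funext s; simp [combo]

theorem combo_cons (c : ℚ × Bump) (L : List (ℚ × Bump)) :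
    combo (c :: L) = fun s => (c.1 : ℝ) * c.2.eval s + combo L s := by
  funext s; simp [combo]

theorem combo_nice {L : List (ℚ × Bump)} (hL : ∀ c ∈ L, c.2.Valid) : Nice (combo L) := by
  induction L with
  | nil => rw [combo_nil]; exact Nice.zero
  | cons c L ih =>
    rw [combo_cons]
    exact ((c.2.nice (hL c (by simp))).const_mul _).add (ih fun c hc => hL c (by simp [hc]))

theorem per_combo {L : List (ℚ × Bump)} (hL : ∀ c ∈ L, c.2.Valid) (y : ℝ) :
    per (combo L) y = (L.map fun c => (c.1 : ℝ) * per c.2.eval y).sum := by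
  induction L with
  | nil => rw [combo_nil, per_zero]; simp
  | cons c L ih =>
    rw [combo_cons, per_add ((c.2.nice (hL c (by simp))).const_mul _)
      (combo_nice fun c hc => hL c (by simp [hc])), per_const_mul,
      ih fun c hc => hL c (by simp [hc])]
    simp

/-- The derivative of a bump is a rational combination of bumps. -/
theorem Bump.deriv_combo (g : Bump) (hg : g.Valid) : ∃ L : List (ℚ × Bump),
    (∀ c ∈ L, c.2.Valid) ∧ ∀ s, HasDerivAt g.eval (combo L s) s := by
  obtain ⟨k, a, b, kind⟩ := g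
  cases kind with
  | inl j =>
    refine ⟨[(k, ⟨k - 1, a, b, .inl j⟩), (a.val, ⟨k, a, b, .inl (j + 1)⟩)], ?_, fun s => ?_⟩
    · intro c hc
      simp only [List.mem_cons, List.not_mem_nil, or_false] at hc
      rcases hc with rfl | rfl
      · exact ⟨hg.1, fun l hl => by simp at hl⟩
      · exact ⟨hg.1, fun l hl => by simp at hl⟩
    · have h1 : HasDerivAt (fun s : ℝ => (a.val : ℝ) * s - b.val) (a.val : ℝ) s := by
        simpa using ((hasDerivAt_id s).const_mul (a.val : ℝ)).sub_const (b.val : ℝ)
      have h2 := (hasDerivAt_pow k s).mul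
        ((iteratedDeriv_rho_hasDerivAt j ((a.val : ℝ) * s - b.val)).comp s h1)
      refine HasDerivAt.congr_deriv h2 ?_
      simp only [combo, Bump.eval, List.map_cons, List.map_nil, List.sum_cons, List.sum_nil]
      push_cast
      simp only [Function.comp_apply]
      ring
  | inr l =>
    have hl : 0 < l.val := hg.2 l rfl
    refine ⟨[(k, ⟨k - 1, a, b, .inr l⟩), (a.val, ⟨k, a, b, .inl 0⟩),
      (-a.val, ⟨k, a, Rt.mk' (b.val + l.val), .inl 0⟩)], ?_, fun s => ?_⟩
    · intro c hc
      simp only [List.mem_cons, List.not_mem_nil, or_false] at hc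
      rcases hc with rfl | rfl | rfl
      · exact ⟨hg.1, fun l' hl' => by simp only [Sum.inr.injEq] at hl'; rw [← hl']; exact hl⟩
      · exact ⟨hg.1, fun l hl => by simp at hl⟩
      · exact ⟨hg.1, fun l hl => by simp at hl⟩
    · have h1 : HasDerivAt (fun s : ℝ => (a.val : ℝ) * s - b.val) (a.val : ℝ) s := by
        simpa using ((hasDerivAt_id s).const_mul (a.val : ℝ)).sub_const (b.val : ℝ)
      have h2 := (hasDerivAt_pow k s).mul
        ((plat_hasDerivAt l.val ((a.val : ℝ) * s - b.val)).comp s h1)
      refine HasDerivAt.congr_deriv h2 ?_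
      have h3 : (a.val : ℝ) * s - (b.val + l.val) = (a.val : ℝ) * s - b.val - l.val := by ring
      simp only [combo, Bump.eval, List.map_cons, List.map_nil, List.sum_cons, List.sum_nil,
        Rt.val_mk', iteratedDeriv_zero, Rat.cast_add, h3]
      push_cast
      simp only [Function.comp_apply]
      ring

end Vale.Agent.P113
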