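import Vale.Agent.P113.R2.H813.AdmBump
import Vale.Agent.P113.R2.H961.AdmDefs

/-! Calculus of admissible functions. -/

namespace Vale.Agent.P113

open MeasureTheory Set

theorem Term.eval_def (ν : ℝ) (τ : Term) (t : ℝ) (x : Fin 3 → ℝ) : τ.eval ν t x =
    τ.coef.val * ν ^ τ.nuPow * Vale.Agent.P113.kappa ^ τ.kappaPow *
      (τ.logs.map fun r => Real.log r.val).prod *
      (τ.time.map fun g => timeFactor g t).prod *
      ∏ i, ((τ.space i).map fun g => per g.eval (x i)).prod := rfl

/-- Product of terms. -/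
def Term.mul (τ σ : Term) : Term :=
  ⟨Rt.mk' (τ.coef.val * σ.coef.val), τ.nuPow + σ.nuPow, τ.kappaPow + σ.kappaPow,
    τ.logs ++ σ.logs, τ.time ++ σ.time, fun i => τ.space i ++ σ.space i⟩

theorem Term.eval_mul (ν : ℝ) (τ σ : Term) (t : ℝ) (x : Fin 3 → ℝ) :
    (τ.mul σ).eval ν t x = τ.eval ν t x * σ.eval ν t x := by
  simp only [Term.eval_def, Term.mul, Rt.val_mk', List.map_append, List.prod_append, pow_add,
    zpow_add₀ kappa_pos.ne', Finset.prod_mul_distrib, Rat.cast_mul]
  ring

theorem Term.Valid.mul {τ σ : Term} (h : τ.Valid) (k : σ.Valid) : (τ.mul σ).Valid := by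
  refine ⟨fun r hr => ?_, fun g hg => ?_, fun i g hg => ?_⟩
  · rcases List.mem_append.1 hr with hr | hr
    · exact h.1 r hr
    · exact k.1 r hr
  · rcases List.mem_append.1 hg with hg | hg
    · exact h.2.1 g hg
    · exact k.2.1 g hg
  · rcases List.mem_append.1 hg with hg | hg
    · exact h.2.2 i g hg
    · exact k.2.2 i g hg

theorem Term.isPeriodic_mul (τ σ : Term) :
    (τ.mul σ).isPeriodic = (τ.isPeriodic && σ.isPeriodic) := by
  simp [Term.isPeriodic, Term.mul, List.all_append]

theorem Adm.zero : Adm fun _ _ _ => 0 := ⟨[], by simp, by simp⟩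

theorem Adm.const (q : ℚ) : Adm fun _ _ _ => (q : ℝ) :=
  ⟨[⟨Rt.mk' q, 0, 0, [], [], fun _ => []⟩], by simp [Term.Valid, Term.isPeriodic],
    by simp [Term.eval_def]⟩

theorem Adm.nu : Adm fun ν _ _ => ν :=
  ⟨[⟨Rt.mk' 1, 1, 0, [], [], fun _ => []⟩], by simp [Term.Valid, Term.isPeriodic],
    by simp [Term.eval_def]⟩

theorem Adm.kappa (n : ℤ) : Adm fun _ _ _ => Vale.Agent.P113.kappa ^ n :=
  ⟨[⟨Rt.mk' 1, 0, n, [], [], fun _ => []⟩], by simp [Term.Valid, Term.isPeriodic],
    by simp [Term.eval_def]⟩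

theorem Adm.log {r : ℚ} (hr : 0 < r) : Adm fun _ _ _ => Real.log r :=
  ⟨[⟨Rt.mk' 1, 0, 0, [Rt.mk' r], [], fun _ => []⟩], by simp [Term.Valid, Term.isPeriodic, hr],
    by simp [Term.eval_def]⟩

theorem Adm.time (g : Bump) (hg : g.Valid) : Adm fun _ t _ => per g.eval t :=
  ⟨[⟨Rt.mk' 1, 0, 0, [], [(true, g)], fun _ => []⟩], by simp [Term.Valid, Term.isPeriodic, hg],
    by simp [Term.eval_def, timeFactor]⟩

theorem Adm.space (g : Bump) (hg : g.Valid) (i : Fin 3) : Adm fun _ _ x => per g.eval (x i) := by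
  refine ⟨[⟨Rt.mk' 1, 0, 0, [], [], fun j => if j = i then [g] else []⟩], ?_, fun ν t x => ?_⟩
  · intro τ hτ
    simp only [List.mem_cons, List.not_mem_nil, or_false] at hτ
    subst hτ
    refine ⟨⟨by simp, by simp, fun j g' hg' => ?_⟩, by simp [Term.isPeriodic]⟩
    by_cases hj : j = i
    · simp only [hj, if_true, List.mem_cons, List.not_mem_nil, or_false] at hg'
      rw [hg']; exact hg
    · simp [hj] at hg'
  · simp only [List.map_cons, List.map_nil, List.sum_cons, List.sum_nil, add_zero, Term.eval_def,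
      Rt.val_mk', Rat.cast_one, pow_zero, zpow_zero, List.prod_nil, mul_one, one_mul]
    rw [Finset.prod_eq_single i]
    · simp
    · intro j _ hj; simp [hj]
    · intro h; exact absurd (Finset.mem_univ i) h

theorem Adm.add {F G : ℝ → ℝ → (Fin 3 → ℝ) → ℝ} (hF : Adm F) (hG : Adm G) :
    Adm fun ν t x => F ν t x + G ν t x := by
  obtain ⟨L, hL, eL⟩ := hF
  obtain ⟨M, hM, eM⟩ := hG
  refine ⟨L ++ M, fun τ hτ => ?_, fun ν t x => ?_⟩
  · rcases List.mem_append.1 hτ with h | h
    · exact hL τ h
    · exact hM τ h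
  · simp only [eL, eM, List.map_append, List.sum_append]

theorem Adm.mul {F G : ℝ → ℝ → (Fin 3 → ℝ) → ℝ} (hF : Adm F) (hG : Adm G) :
    Adm fun ν t x => F ν t x * G ν t x := by
  obtain ⟨L, hL, eL⟩ := hF
  obtain ⟨M, hM, eM⟩ := hG
  refine ⟨L.flatMap fun τ => M.map τ.mul, fun τ hτ => ?_, fun ν t x => ?_⟩
  · obtain ⟨τ1, h1, h2⟩ := List.mem_flatMap.1 hτ
    obtain ⟨τ2, h3, rfl⟩ := List.mem_map.1 h2
    refine ⟨(hL τ1 h1).1.mul (hM τ2 h3).1, ?_⟩
    rw [Term.isPeriodic_mul, (hL τ1 h1).2, (hM τ2 h3).2]; rfl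
  · simp only [eL, eM]
    clear hL eL
    induction L with
    | nil => simp
    | cons τ L ih =>
      simp only [List.map_cons, List.sum_cons, List.flatMap_cons, List.map_append, List.sum_append,
        add_mul, ih, List.map_map, add_left_inj]
      rw [← List.sum_map_mul_left]
      congr 1
      apply List.map_congr_left
      intro σ _
      simp only [Function.comp_apply, Term.eval_mul]

theorem Adm.congr {F G : ℝ → ℝ → (Fin 3 → ℝ) → ℝ} (hF : Adm F) (h : ∀ ν t x, G ν t x = F ν t x) :
    Adm G := by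
  obtain ⟨L, hL, eL⟩ := hF
  exact ⟨L, hL, fun ν t x => (h ν t x).trans (eL ν t x)⟩

theorem Adm.neg {F : ℝ → ℝ → (Fin 3 → ℝ) → ℝ} (hF : Adm F) : Adm fun ν t x => - F ν t x :=
  ((Adm.const (-1)).mul hF).congr fun ν t x => by push_cast; ring

theorem Adm.sub {F G : ℝ → ℝ → (Fin 3 → ℝ) → ℝ} (hF : Adm F) (hG : Adm G) :
    Adm fun ν t x => F ν t x - G ν t x :=
  (hF.add hG.neg).congr fun ν t x => by ring

theorem Adm.listSum {ι : Type*} (l : List ι) (F : ι → ℝ → ℝ → (Fin 3 → ℝ) → ℝ)
    (h : ∀ i ∈ l, Adm (F i)) : Adm fun ν t x => (l.map fun i => F i ν t x).sum := by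
  induction l with
  | nil => simpa using Adm.zero
  | cons a l ih =>
    simpa using (h a (by simp)).add (ih fun i hi => h i (by simp [hi]))

theorem Adm.sum {ι : Type*} (s : Finset ι) (F : ι → ℝ → ℝ → (Fin 3 → ℝ) → ℝ)
    (h : ∀ i ∈ s, Adm (F i)) : Adm fun ν t x => ∑ i ∈ s, F i ν t x := by
  classical
  induction s using Finset.induction_on with
  | empty => simpa using Adm.zero
  | insert a s ha ih =>
    simp only [Finset.sum_insert ha]
    exact (h a (by simp)).add (ih fun i hi => h i (by simp [hi]))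

theorem Adm.prod {ι : Type*} (s : Finset ι) (F : ι → ℝ → ℝ → (Fin 3 → ℝ) → ℝ)
    (h : ∀ i ∈ s, Adm (F i)) : Adm fun ν t x => ∏ i ∈ s, F i ν t x := by
  classical
  induction s using Finset.induction_on with
  | empty => simpa using Adm.const 1
  | insert a s ha ih =>
    simp only [Finset.prod_insert ha]
    exact (h a (by simp)).mul (ih fun i hi => h i (by simp [hi]))

theorem Adm.term {τ : Term} (h : τ.Valid) (hp : τ.isPeriodic = true) :
    Adm fun ν t x => τ.eval ν t x :=
  ⟨[τ], by simp [h, hp], by simp⟩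

/-- Derivative of one periodized bump. -/
theorem Bump.per_deriv (g : Bump) (hg : g.Valid) : ∃ D : ℝ → ℝ,
    (Adm fun _ t _ => D t) ∧ (∀ i : Fin 3, Adm fun _ _ x => D (x i)) ∧
    ∀ y, HasDerivAt (per g.eval) (D y) y := by
  obtain ⟨L, hL, hd⟩ := g.deriv_combo hg
  refine ⟨per (combo L), ?_, fun i => ?_, fun y => (g.nice hg).per_hasDerivAt (combo_nice hL) hd y⟩
  · simp only [per_combo hL]
    exact Adm.listSum L _ fun c hc => (Adm.const c.1).mul (Adm.time c.2 (hL c hc))
  · simp only [per_combo hL]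
    exact Adm.listSum L _ fun c hc => (Adm.const c.1).mul (Adm.space c.2 (hL c hc) i)

theorem timeProd_adm {l : List (Bool × Bump)} (h : ∀ g ∈ l, g.2.Valid)
    (hp : (l.all fun g => g.1) = true) :
    Adm fun _ t _ => (l.map fun g => timeFactor g t).prod := by
  induction l with
  | nil => simpa using Adm.const 1
  | cons g l ih =>
    simp only [List.all_cons, Bool.and_eq_true] at hp
    simp only [List.map_cons, List.prod_cons]
    refine Adm.mul ?_ (ih (fun g hg => h g (by simp [hg])) hp.2)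
    simp only [timeFactor, hp.1, if_true]
    exact Adm.time g.2 (h g (by simp))

theorem timeProd_deriv {l : List (Bool × Bump)} (h : ∀ g ∈ l, g.2.Valid)
    (hp : (l.all fun g => g.1) = true) : ∃ D : ℝ → ℝ, (Adm fun _ t _ => D t) ∧
    ∀ t, HasDerivAt (fun s => (l.map fun g => timeFactor g s).prod) (D t) t := by
  induction l with
  | nil => exact ⟨fun _ => 0, Adm.zero, fun t => by simpa using hasDerivAt_const t (1:ℝ)⟩
  | cons g l ih =>
    have hp' := hp
    simp only [List.all_cons, Bool.and_eq_true] at hp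
    have hl : ∀ g ∈ l, g.2.Valid := fun g hg => h g (by simp [hg])
    obtain ⟨D, aD, dD⟩ := ih hl hp.2
    obtain ⟨E, aE, _, dE⟩ := g.2.per_deriv (h g (by simp))
    refine ⟨fun t => E t * (l.map fun g => timeFactor g t).prod + per g.2.eval t * D t,
      (aE.mul (timeProd_adm hl hp.2)).add ((Adm.time g.2 (h g (by simp))).mul aD), fun t => ?_⟩
    simp only [List.map_cons, List.prod_cons]
    have : ∀ s, timeFactor g s = per g.2.eval s := fun s => by simp [timeFactor, hp.1]
    simp only [this]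
    exact (dE t).mul (dD t)

theorem spaceProd_adm {l : List Bump} (h : ∀ g ∈ l, g.Valid) (i : Fin 3) :
    Adm fun _ _ x => (l.map fun g => per g.eval (x i)).prod := by
  induction l with
  | nil => simpa using Adm.const 1
  | cons g l ih =>
    simp only [List.map_cons, List.prod_cons]
    exact Adm.mul (Adm.space g (h g (by simp)) i) (ih (fun g hg => h g (by simp [hg])))

theorem spaceProd_deriv {l : List Bump} (h : ∀ g ∈ l, g.Valid) : ∃ D : ℝ → ℝ,
    (∀ i : Fin 3, Adm fun _ _ x => D (x i)) ∧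
    ∀ y, HasDerivAt (fun s => (l.map fun g => per g.eval s).prod) (D y) y := by
  induction l with
  | nil => exact ⟨fun _ => 0, fun _ => Adm.zero, fun t => by simpa using hasDerivAt_const t (1:ℝ)⟩
  | cons g l ih =>
    have hl : ∀ g ∈ l, g.Valid := fun g hg => h g (by simp [hg])
    obtain ⟨D, aD, dD⟩ := ih hl
    obtain ⟨E, _, aE, dE⟩ := g.per_deriv (h g (by simp))
    refine ⟨fun t => E t * (l.map fun g => per g.eval t).prod + per g.eval t * D t,
      fun i => ((aE i).mul (spaceProd_adm hl i)).add ((Adm.space g (h g (by simp)) i).mul (aD i)),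
      fun t => ?_⟩
    simp only [List.map_cons, List.prod_cons]
    exact (dE t).mul (dD t)

/-- A term is the product of its part without time factors and the time factors. -/
theorem Term.eval_split_time (ν : ℝ) (τ : Term) (t : ℝ) (x : Fin 3 → ℝ) : τ.eval ν t x =
    ({τ with time := []} : Term).eval ν 0 x * (τ.time.map fun g => timeFactor g t).prod := by
  simp only [Term.eval_def, List.map_nil, List.prod_nil]
  ring

/-- A term is the product of its part without factors in `xᵢ` and these factors. -/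
theorem Term.eval_split_space (ν : ℝ) (τ : Term) (i : Fin 3) (t : ℝ) (x : Fin 3 → ℝ) :
    τ.eval ν t x = ({τ with space := Function.update τ.space i []} : Term).eval ν t x *
      ((τ.space i).map fun g => per g.eval (x i)).prod := by
  simp only [Term.eval_def]
  have h1 := Finset.mul_prod_erase Finset.univ
    (fun j => ((τ.space j).map fun g => per g.eval (x j)).prod) (Finset.mem_univ i)
  have h2 := Finset.mul_prod_erase Finset.univ
      (fun j => (((Function.update τ.space i []) j).map fun g => per g.eval (x j)).prod)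
      (Finset.mem_univ i)
  have h3 : ∏ j ∈ Finset.univ.erase i,
      (((Function.update τ.space i []) j).map fun g => per g.eval (x j)).prod =
      ∏ j ∈ Finset.univ.erase i, ((τ.space j).map fun g => per g.eval (x j)).prod := by
    apply Finset.prod_congr rfl
    intro j hj
    rw [Function.update_of_ne (Finset.ne_of_mem_erase hj)]
  simp only [Function.update_self, List.map_nil, List.prod_nil, one_mul] at h2
  rw [← h1, ← h2, h3]
  ring

theorem Term.eval_update (ν : ℝ) (τ : Term) (i : Fin 3) (t : ℝ) (x : Fin 3 → ℝ) (s : ℝ) :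
    ({τ with space := Function.update τ.space i []} : Term).eval ν t (Function.update x i s) =
    ({τ with space := Function.update τ.space i []} : Term).eval ν t x := by
  simp only [Term.eval_def]
  congr 1
  apply Finset.prod_congr rfl
  intro j _
  rcases eq_or_ne j i with rfl | hj
  · simp
  · simp [Function.update_of_ne hj]

theorem Term.dt {τ : Term} (h : τ.Valid) (hp : τ.isPeriodic = true) :
    ∃ F', Adm F' ∧ ∀ ν t x, HasDerivAt (fun s => τ.eval ν s x) (F' ν t x) t := by
  obtain ⟨D, aD, dD⟩ := timeProd_deriv h.2.1 hp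
  have h0 : ({τ with time := []} : Term).Valid := ⟨h.1, by simp, h.2.2⟩
  have a0 : Adm fun ν t x => ({τ with time := []} : Term).eval ν t x :=
    Adm.term h0 (by simp [Term.isPeriodic])
  have a1 : Adm fun ν _ x => ({τ with time := []} : Term).eval ν 0 x :=
    a0.congr fun ν t x => by simp [Term.eval_def]
  refine ⟨_, a1.mul aD, fun ν t x => ?_⟩
  have e : (fun s => τ.eval ν s x) = fun s =>
      ({τ with time := []} : Term).eval ν 0 x * (τ.time.map fun g => timeFactor g s).prod :=
    funext fun s => τ.eval_split_time ν s x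
  rw [e]
  exact (dD t).const_mul _

theorem Term.dx {τ : Term} (h : τ.Valid) (hp : τ.isPeriodic = true) (i : Fin 3) :
    ∃ F', Adm F' ∧ ∀ ν t, HasPD i (fun x => τ.eval ν t x) (F' ν t) := by
  obtain ⟨D, aD, dD⟩ := spaceProd_deriv (h.2.2 i)
  have h0 : ({τ with space := Function.update τ.space i []} : Term).Valid := by
    refine ⟨h.1, h.2.1, fun j g hg => ?_⟩
    rcases eq_or_ne j i with rfl | hj
    · simp at hg
    · have hg' : g ∈ Function.update τ.space i [] j := hg
      rw [Function.update_of_ne hj] at hg'; exact h.2.2 j g hg'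
  have a0 : Adm fun ν t x =>
      ({τ with space := Function.update τ.space i []} : Term).eval ν t x := Adm.term h0 hp
  refine ⟨_, a0.mul (aD i), fun ν t x => ?_⟩
  have e : (fun s => τ.eval ν t (Function.update x i s)) = fun s =>
      ({τ with space := Function.update τ.space i []} : Term).eval ν t x *
        ((τ.space i).map fun g => per g.eval s).prod := by
    funext s
    rw [τ.eval_split_space ν i, τ.eval_update, Function.update_self]
  show HasDerivAt (fun s => τ.eval ν t (Function.update x i s)) _ (x i)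
  rw [e]
  exact (dD (x i)).const_mul _

theorem Adm.dt {F : ℝ → ℝ → (Fin 3 → ℝ) → ℝ} (hF : Adm F) :
    ∃ F', Adm F' ∧ ∀ ν t x, HasDerivAt (fun s => F ν s x) (F' ν t x) t := by
  obtain ⟨L, hL, eL⟩ := hF
  suffices h : ∃ F', Adm F' ∧ ∀ ν t x,
      HasDerivAt (fun s => (L.map fun τ => τ.eval ν s x).sum) (F' ν t x) t by
    obtain ⟨F', a, d⟩ := h
    exact ⟨F', a, fun ν t x => by simpa only [eL] using d ν t x⟩
  clear eL
  induction L with
  | nil => exact ⟨_, Adm.zero, fun ν t x => by simpa using hasDerivAt_const t (0:ℝ)⟩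
  | cons τ L ih =>
    obtain ⟨F', a, d⟩ := ih fun τ hτ => hL τ (by simp [hτ])
    obtain ⟨G', b, e⟩ := Term.dt (hL τ (by simp)).1 (hL τ (by simp)).2
    refine ⟨_, b.add a, fun ν t x => ?_⟩
    simp only [List.map_cons, List.sum_cons]
    exact (e ν t x).add (d ν t x)

theorem Adm.dx {F : ℝ → ℝ → (Fin 3 → ℝ) → ℝ} (hF : Adm F) (i : Fin 3) :
    ∃ F', Adm F' ∧ ∀ ν t, HasPD i (F ν t) (F' ν t) := by
  obtain ⟨L, hL, eL⟩ := hF
  suffices h : ∃ F', Adm F' ∧ ∀ ν t,
      HasPD i (fun x => (L.map fun τ => τ.eval ν t x).sum) (F' ν t) by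
    obtain ⟨F', a, d⟩ := h
    refine ⟨F', a, fun ν t => ?_⟩
    have : F ν t = fun x => (L.map fun τ => τ.eval ν t x).sum := funext fun x => eL ν t x
    rw [this]; exact d ν t
  clear eL
  induction L with
  | nil => exact ⟨_, Adm.zero, fun ν t x => by simpa using hasDerivAt_const (x i) (0:ℝ)⟩
  | cons τ L ih =>
    obtain ⟨F', a, d⟩ := ih fun τ hτ => hL τ (by simp [hτ])
    obtain ⟨G', b, e⟩ := Term.dx (hL τ (by simp)).1 (hL τ (by simp)).2 i
    refine ⟨_, b.add a, fun ν t x => ?_⟩
    simp only [List.map_cons, List.sum_cons]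
    exact (e ν t x).add (d ν t x)

theorem listProd_contDiff {E : Type*} [NormedAddCommGroup E] [NormedSpace ℝ E] {ι : Type*}
    (l : List ι) (f : ι → E → ℝ) (h : ∀ i ∈ l, ContDiff ℝ (⊤ : ℕ∞) (f i)) :
    ContDiff ℝ (⊤ : ℕ∞) fun z => (l.map fun i => f i z).prod := by
  induction l with
  | nil => simpa using contDiff_const
  | cons a l ih =>
    simp only [List.map_cons, List.prod_cons]
    exact (h a (by simp)).mul (ih fun i hi => h i (by simp [hi]))

theorem Term.contDiff {τ : Term} (h : τ.Valid) (hp : τ.isPeriodic = true) (ν : ℝ) :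
    ContDiff ℝ (⊤ : ℕ∞) fun z : ℝ × (Fin 3 → ℝ) => τ.eval ν z.1 z.2 := by
  simp only [Term.eval_def]
  refine (contDiff_const.mul ?_).mul ?_
  · apply listProd_contDiff
    intro g hg
    have h1 : g.1 = true := by
      have := List.all_eq_true.1 hp g hg
      simpa using this
    simp only [timeFactor, h1, if_true]
    exact (g.2.per_contDiff (h.2.1 g hg)).comp contDiff_fst
  · apply contDiff_prod
    intro i _
    apply listProd_contDiff
    intro g hg
    exact (g.per_contDiff (h.2.2 i g hg)).comp ((contDiff_apply ℝ ℝ i).comp contDiff_snd)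

theorem Adm.contDiff {F : ℝ → ℝ → (Fin 3 → ℝ) → ℝ} (hF : Adm F) (ν : ℝ) :
    ContDiff ℝ (⊤ : ℕ∞) fun z : ℝ × (Fin 3 → ℝ) => F ν z.1 z.2 := by
  obtain ⟨L, hL, eL⟩ := hF
  simp only [eL]
  clear eL
  induction L with
  | nil => simpa using contDiff_const
  | cons τ L ih =>
    simp only [List.map_cons, List.sum_cons]
    exact (Term.contDiff (hL τ (by simp)).1 (hL τ (by simp)).2 ν).add
      (ih fun τ hτ => hL τ (by simp [hτ]))

theorem Adm.periodic3 {F : ℝ → ℝ → (Fin 3 → ℝ) → ℝ} (hF : Adm F) (ν t : ℝ) :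
    Periodic3 (F ν t) := by
  obtain ⟨L, hL, eL⟩ := hF
  intro x k
  simp only [eL, Term.eval_def, per_periodic]

theorem Adm.time_periodic {F : ℝ → ℝ → (Fin 3 → ℝ) → ℝ} (hF : Adm F) (ν t : ℝ) (n : ℤ)
    (x : Fin 3 → ℝ) : F ν (t + n) x = F ν t x := by
  obtain ⟨L, hL, eL⟩ := hF
  simp only [eL]
  congr 1
  apply List.map_congr_left
  intro τ hτ
  rw [Term.eval_def, Term.eval_def]
  congr 2
  congr 1
  apply List.map_congr_left
  intro g hg
  have h1 : g.1 = true := by
    have := List.all_eq_true.1 (hL τ hτ).2 g hg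
    simpa using this
  simp only [timeFactor, h1, if_true, per_periodic]

end Vale.Agent.P113
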