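import Mathlib

open MeasureTheory Set

namespace Vale.Agent.P113.R2.H813

/-- The integral over the unit cube of a continuous partial derivative of a function that is
`1`-periodic in that coordinate is zero. -/
theorem integral_cube_partial {n : ℕ} (i : Fin (n + 1)) {F F' : (Fin (n + 1) → ℝ) → ℝ}
    (hF' : Continuous F')
    (hd : ∀ x, HasDerivAt (fun s : ℝ => F (x + Pi.single i s)) (F' x) 0)
    (hp : ∀ x, F (x + Pi.single i 1) = F x) :
    ∫ x in Icc (0 : Fin (n + 1) → ℝ) 1, F' x = 0 := by
  set e : ℝ × (Fin n → ℝ) ≃ᵐ (Fin (n + 1) → ℝ) :=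
    (MeasurableEquiv.piFinSuccAbove (fun _ => ℝ) i).symm with he
  have hem : MeasurePreserving e :=
    (volume_preserving_piFinSuccAbove (fun _ : Fin (n + 1) => ℝ) i).symm _
  have heπ : (e ⁻¹' Icc (0 : Fin (n + 1) → ℝ) 1) = Icc (0 : ℝ) 1 ×ˢ Icc (0 : Fin n → ℝ) 1 :=
    ((Fin.insertNthOrderIso (fun _ => ℝ) i).preimage_Icc _ _).trans (Icc_prod_eq _ _)
  have heapp : ∀ s y, e (s, y) = i.insertNth s y := fun s y => rfl
  have hcont : Continuous fun z : ℝ × (Fin n → ℝ) => F' (e z) := by
    have : Continuous fun z : ℝ × (Fin n → ℝ) => e z := by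
      have h2 : (fun z : ℝ × (Fin n → ℝ) => e z) = fun z => (i.insertNth z.1 z.2 : Fin (n+1) → ℝ) := by
        funext z; exact heapp z.1 z.2
      rw [h2]
      exact Continuous.finInsertNth i continuous_fst continuous_snd
    exact hF'.comp this
  rw [← hem.map_eq, setIntegral_map_equiv, heπ, Measure.volume_eq_prod, ← Measure.prod_restrict,
    integral_prod_symm]
  · have key : ∀ y : Fin n → ℝ, ∫ s in Icc (0:ℝ) 1, F' (e (s, y)) = 0 := by
      intro y
      rw [integral_Icc_eq_integral_Ioc, ← intervalIntegral.integral_of_le zero_le_one]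
      have hder : ∀ s ∈ uIcc (0:ℝ) 1,
          HasDerivAt (fun s : ℝ => F (i.insertNth s y : Fin (n+1) → ℝ)) (F' (e (s, y))) s := by
        intro s _
        have h1 := hd (i.insertNth s y : Fin (n+1) → ℝ)
        have h2 : HasDerivAt (fun r : ℝ => F ((i.insertNth s y : Fin (n+1) → ℝ) + Pi.single i (r - s)))
            (F' (i.insertNth s y : Fin (n+1) → ℝ)) s := by
          have h3 := HasDerivAt.comp_sub_const (f := fun s' : ℝ =>
            F ((i.insertNth s y : Fin (n+1) → ℝ) + Pi.single i s')) (x := s) (a := s)
            (f' := F' (i.insertNth s y : Fin (n+1) → ℝ)) (by simpa using h1)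
          simpa using h3
        refine h2.congr_of_eventuallyEq (Filter.Eventually.of_forall fun r => ?_)
        show F _ = F _
        congr 1
        funext j
        rcases eq_or_ne j i with rfl | hji
        · simp
        · obtain ⟨k, rfl⟩ := Fin.exists_succAbove_eq hji
          simp [Pi.single_apply, Fin.succAbove_ne]
      rw [intervalIntegral.integral_eq_sub_of_hasDerivAt hder]
      · have := hp (i.insertNth 0 y : Fin (n+1) → ℝ)
        have h4 : (i.insertNth (0:ℝ) y : Fin (n+1) → ℝ) + Pi.single i 1 = i.insertNth (1:ℝ) y := by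
          funext j
          rcases eq_or_ne j i with rfl | hji
          · simp
          · obtain ⟨k, rfl⟩ := Fin.exists_succAbove_eq hji
            simp [Pi.single_apply, Fin.succAbove_ne]
        rw [h4] at this
        rw [this, sub_self]
      · apply Continuous.intervalIntegrable
        exact hcont.comp (by fun_prop)
    simp [key]
  · rw [Measure.prod_restrict]
    exact (hcont.continuousOn).integrableOn_compact (isCompact_Icc.prod isCompact_Icc)

end Vale.Agent.P113.R2.H813
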