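import Vale.Agent.P113.R2.H813.Cube

open MeasureTheory Set

namespace Vale.Agent.P113.R2.H813

/-- Three-dimensional coordinate space. -/
abbrev V := Fin 3 → ℝ

/-- A classical solution on `[0, T]` with its derivatives listed: `ut` is the time derivative,
`Du i` the partial derivative in direction `i`, `DDu i` the second pure one, `Dp i` the partial
derivative of the pressure. -/
structure CS (ν : ℝ) (f : ℝ → V → V) (T : ℝ) (u : ℝ → V → V) (p : ℝ → V → ℝ)
    (ut : ℝ → V → V) (Du DDu : Fin 3 → ℝ → V → V) (Dp : Fin 3 → ℝ → V → ℝ) : Prop where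
  cu : ContinuousOn (fun z : ℝ × V => u z.1 z.2) (Icc 0 T ×ˢ univ)
  cut : ContinuousOn (fun z : ℝ × V => ut z.1 z.2) (Icc 0 T ×ˢ univ)
  cDu : ∀ i, ContinuousOn (fun z : ℝ × V => Du i z.1 z.2) (Icc 0 T ×ˢ univ)
  cDDu : ∀ i, ContinuousOn (fun z : ℝ × V => DDu i z.1 z.2) (Icc 0 T ×ˢ univ)
  cp : ContinuousOn (fun z : ℝ × V => p z.1 z.2) (Icc 0 T ×ˢ univ)
  cDp : ∀ i, ContinuousOn (fun z : ℝ × V => Dp i z.1 z.2) (Icc 0 T ×ˢ univ)
  pu : ∀ t ∈ Icc 0 T, ∀ x i, u t (x + Pi.single i 1) = u t x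
  pp : ∀ t ∈ Icc 0 T, ∀ x i, p t (x + Pi.single i 1) = p t x
  dt : ∀ t ∈ Icc 0 T, ∀ x, HasDerivWithinAt (fun s => u s x) (ut t x) (Icc 0 T) t
  dx : ∀ t ∈ Icc 0 T, ∀ x i, HasDerivAt (fun s : ℝ => u t (x + Pi.single i s)) (Du i t x) 0
  dxx : ∀ t ∈ Icc 0 T, ∀ x i, HasDerivAt (fun s : ℝ => Du i t (x + Pi.single i s)) (DDu i t x) 0
  dp : ∀ t ∈ Icc 0 T, ∀ x i, HasDerivAt (fun s : ℝ => p t (x + Pi.single i s)) (Dp i t x) 0
  div : ∀ t ∈ Icc 0 T, ∀ x, ∑ i, Du i t x i = 0
  eqn : ∀ t ∈ Icc 0 T, ∀ x j, ut t x j + ∑ i, u t x i * Du i t x j =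
    - Dp j t x + ν * ∑ i, DDu i t x j + f t x j
  mean : ∀ t ∈ Icc 0 T, ∫ x in Icc (0 : V) 1, p t x = 0
  init : ∀ x, u 0 x = 0

namespace CS

variable {ν : ℝ} {f : ℝ → V → V} {T : ℝ} {u : ℝ → V → V} {p : ℝ → V → ℝ}
  {ut : ℝ → V → V} {Du DDu : Fin 3 → ℝ → V → V} {Dp : Fin 3 → ℝ → V → ℝ}
  {v : ℝ → V → V} {q : ℝ → V → ℝ}
  {vt : ℝ → V → V} {Dv DDv : Fin 3 → ℝ → V → V} {Dq : Fin 3 → ℝ → V → ℝ}

theorem pDu (h : CS ν f T u p ut Du DDu Dp) {t : ℝ} (ht : t ∈ Icc 0 T) (x : V) (i j : Fin 3) :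
    Du i t (x + Pi.single j 1) = Du i t x := by
  have h1 := h.dx t ht (x + Pi.single j 1) i
  have h2 := h.dx t ht x i
  refine HasDerivAt.unique h1 (h2.congr_of_eventuallyEq (Filter.Eventually.of_forall fun s => ?_))
  show u t (x + Pi.single j 1 + Pi.single i s) = u t (x + Pi.single i s)
  rw [add_right_comm, h.pu t ht]

theorem slice {E : Type*} [TopologicalSpace E] {g : ℝ → V → E}
    (h : ContinuousOn (fun z : ℝ × V => g z.1 z.2) (Icc 0 T ×ˢ univ)) {t : ℝ} (ht : t ∈ Icc 0 T) :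
    Continuous (g t) :=
  h.comp_continuous (f := fun x : V => ((t, x) : ℝ × V)) (by fun_prop) fun x => ⟨ht, mem_univ _⟩

theorem tslice {E : Type*} [TopologicalSpace E] {g : ℝ → V → E}
    (h : ContinuousOn (fun z : ℝ × V => g z.1 z.2) (Icc 0 T ×ˢ univ)) (x : V) :
    ContinuousOn (fun s => g s x) (Icc 0 T) :=
  h.comp (t := Icc 0 T ×ˢ univ) (f := fun s : ℝ => ((s, x) : ℝ × V)) (by fun_prop)
    fun s hs => ⟨hs, mem_univ _⟩

/-- The spatial part of the energy estimate. -/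
theorem energy_space (h : CS ν f T u p ut Du DDu Dp) (k : CS ν f T v q vt Dv DDv Dq)
    (hν : 0 ≤ ν) {M : ℝ} (hM : ∀ t ∈ Icc 0 T, ∀ x ∈ Icc (0 : V) 1, ∀ i j, |Dv i t x j| ≤ M)
    {t : ℝ} (ht : t ∈ Icc 0 T) :
    ∫ x in Icc (0 : V) 1, ∑ j, 2 * ((u t x j - v t x j) * (ut t x j - vt t x j)) ≤
      6 * M * ∫ x in Icc (0 : V) 1, ∑ j, (u t x j - v t x j) ^ 2 := by
  have cu := slice h.cu ht
  have cut := slice h.cut ht
  have cDu := fun i => slice (h.cDu i) ht
  have cDDu := fun i => slice (h.cDDu i) ht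
  have cp := slice h.cp ht
  have cDp := fun i => slice (h.cDp i) ht
  have cv := slice k.cu ht
  have cvt := slice k.cut ht
  have cDv := fun i => slice (k.cDu i) ht
  have cDDv := fun i => slice (k.cDDu i) ht
  have cq := slice k.cp ht
  have cDq := fun i => slice (k.cDp i) ht
  set G : Fin 3 → V → ℝ := fun i x =>
    u t x i * ((∑ j, (u t x j - v t x j) ^ 2) / 2) + (p t x - q t x) * (u t x i - v t x i)
      - ν * ∑ j, (u t x j - v t x j) * (Du i t x j - Dv i t x j) with hG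
  set G' : Fin 3 → V → ℝ := fun i x =>
    (Du i t x i * ((∑ j, (u t x j - v t x j) ^ 2) / 2) +
      u t x i * (∑ j, (u t x j - v t x j) * (Du i t x j - Dv i t x j)))
      + ((Dp i t x - Dq i t x) * (u t x i - v t x i) + (p t x - q t x) * (Du i t x i - Dv i t x i))
      - ν * ∑ j, ((Du i t x j - Dv i t x j) * (Du i t x j - Dv i t x j) +
        (u t x j - v t x j) * (DDu i t x j - DDv i t x j)) with hG'
  have cG' : ∀ i, Continuous (G' i) := by
    intro i
    have := cDu i; have := cDDu i; have := cDp i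
    have := cDv i; have := cDDv i; have := cDq i
    simp only [hG']
    fun_prop
  have dG : ∀ i x, HasDerivAt (fun s : ℝ => G i (x + Pi.single i s)) (G' i x) 0 := by
    intro i x
    have z : x + Pi.single i (0:ℝ) = x := by simp
    have hu : ∀ j, HasDerivAt (fun s : ℝ => u t (x + Pi.single i s) j) (Du i t x j) 0 := fun j =>
      (hasDerivAt_pi.1 (h.dx t ht x i)) j
    have hv : ∀ j, HasDerivAt (fun s : ℝ => v t (x + Pi.single i s) j) (Dv i t x j) 0 := fun j =>
      (hasDerivAt_pi.1 (k.dx t ht x i)) j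
    have hDu : ∀ j, HasDerivAt (fun s : ℝ => Du i t (x + Pi.single i s) j) (DDu i t x j) 0 :=
      fun j => (hasDerivAt_pi.1 (h.dxx t ht x i)) j
    have hDv : ∀ j, HasDerivAt (fun s : ℝ => Dv i t (x + Pi.single i s) j) (DDv i t x j) 0 :=
      fun j => (hasDerivAt_pi.1 (k.dxx t ht x i)) j
    have hp := h.dp t ht x i
    have hq := k.dp t ht x i
    have hw : ∀ j, HasDerivAt (fun s : ℝ => u t (x + Pi.single i s) j - v t (x + Pi.single i s) j)
        (Du i t x j - Dv i t x j) 0 := fun j => (hu j).sub (hv j)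
    have hs : HasDerivAt (fun s : ℝ =>
        (∑ j, (u t (x + Pi.single i s) j - v t (x + Pi.single i s) j) ^ 2) / 2)
        (∑ j, (u t x j - v t x j) * (Du i t x j - Dv i t x j)) 0 := by
      have h1 := (HasDerivAt.fun_sum (u := Finset.univ) fun j _ => (hw j).fun_pow 2).div_const 2
      refine h1.congr_deriv ?_
      rw [Finset.sum_div]
      refine Finset.sum_congr rfl fun j _ => ?_
      simp only [z]; push_cast; ring
    have h1 := (((hu i).fun_mul hs).fun_add ((hp.fun_sub hq).fun_mul (hw i))).fun_sub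
      ((HasDerivAt.fun_sum (u := Finset.univ) fun j _ =>
        (hw j).fun_mul ((hDu j).fun_sub (hDv j))).const_mul ν)
    refine h1.congr_deriv ?_
    simp only [z, hG']
  have pG : ∀ i x, G i (x + Pi.single i 1) = G i x := by
    intro i x
    simp only [hG, h.pu t ht, k.pu t ht, h.pp t ht, k.pp t ht, h.pDu ht, k.pDu ht]
  have iG : ∀ i, ∫ x in Icc (0 : V) 1, G' i x = 0 := fun i =>
    integral_cube_partial i (cG' i) (dG i) (pG i)
  have point : ∀ x ∈ Icc (0 : V) 1,
      ∑ j, 2 * ((u t x j - v t x j) * (ut t x j - vt t x j)) ≤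
      -2 * ∑ i, G' i x + 6 * M * ∑ j, (u t x j - v t x j) ^ 2 := by
    intro x hx
    have e1 := h.eqn t ht x
    have e2 := k.eqn t ht x
    have d1 := h.div t ht x
    have d2 := k.div t ht x
    have hMx := hM t ht x hx
    have ident : ∑ j, 2 * ((u t x j - v t x j) * (ut t x j - vt t x j)) =
        -2 * ∑ i, G' i x - 2 * ν * ∑ i, ∑ j, (Du i t x j - Dv i t x j) ^ 2
        - 2 * ∑ i, ∑ j, (u t x i - v t x i) * (u t x j - v t x j) * Dv i t x j := by
      simp only [hG', Fin.sum_univ_three] at e1 e2 d1 d2 ⊢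
      have a0 := e1 0; have a1 := e1 1; have a2 := e1 2
      have b0 := e2 0; have b1 := e2 1; have b2 := e2 2
      have a0' : ut t x 0 = - Dp 0 t x + ν * (DDu 0 t x 0 + DDu 1 t x 0 + DDu 2 t x 0) + f t x 0 -
        (u t x 0 * Du 0 t x 0 + u t x 1 * Du 1 t x 0 + u t x 2 * Du 2 t x 0) := by linarith
      have a1' : ut t x 1 = - Dp 1 t x + ν * (DDu 0 t x 1 + DDu 1 t x 1 + DDu 2 t x 1) + f t x 1 -
        (u t x 0 * Du 0 t x 1 + u t x 1 * Du 1 t x 1 + u t x 2 * Du 2 t x 1) := by linarith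
      have a2' : ut t x 2 = - Dp 2 t x + ν * (DDu 0 t x 2 + DDu 1 t x 2 + DDu 2 t x 2) + f t x 2 -
        (u t x 0 * Du 0 t x 2 + u t x 1 * Du 1 t x 2 + u t x 2 * Du 2 t x 2) := by linarith
      have b0' : vt t x 0 = - Dq 0 t x + ν * (DDv 0 t x 0 + DDv 1 t x 0 + DDv 2 t x 0) + f t x 0 -
        (v t x 0 * Dv 0 t x 0 + v t x 1 * Dv 1 t x 0 + v t x 2 * Dv 2 t x 0) := by linarith
      have b1' : vt t x 1 = - Dq 1 t x + ν * (DDv 0 t x 1 + DDv 1 t x 1 + DDv 2 t x 1) + f t x 1 -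
        (v t x 0 * Dv 0 t x 1 + v t x 1 * Dv 1 t x 1 + v t x 2 * Dv 2 t x 1) := by linarith
      have b2' : vt t x 2 = - Dq 2 t x + ν * (DDv 0 t x 2 + DDv 1 t x 2 + DDv 2 t x 2) + f t x 2 -
        (v t x 0 * Dv 0 t x 2 + v t x 1 * Dv 1 t x 2 + v t x 2 * Dv 2 t x 2) := by linarith
      have c1 : Du 2 t x 2 = -(Du 0 t x 0 + Du 1 t x 1) := by linarith
      have c2 : Dv 2 t x 2 = -(Dv 0 t x 0 + Dv 1 t x 1) := by linarith
      rw [a0', a1', a2', b0', b1', b2', c1, c2]
      ring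
    rw [ident]
    have n1 : 0 ≤ 2 * ν * ∑ i, ∑ j, (Du i t x j - Dv i t x j) ^ 2 :=
      mul_nonneg (by linarith) (Finset.sum_nonneg fun i _ => Finset.sum_nonneg fun j _ => sq_nonneg _)
    have n2 : -(2 * ∑ i, ∑ j, (u t x i - v t x i) * (u t x j - v t x j) * Dv i t x j) ≤
        6 * M * ∑ j, (u t x j - v t x j) ^ 2 := by
      have term : ∀ i j : Fin 3, -((u t x i - v t x i) * (u t x j - v t x j) * Dv i t x j) ≤
          M * (((u t x i - v t x i) ^ 2 + (u t x j - v t x j) ^ 2) / 2) := by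
        intro i j
        have hab := hMx i j
        set a := u t x i - v t x i
        set b := u t x j - v t x j
        have hM0 : 0 ≤ M := (abs_nonneg _).trans hab
        calc -(a * b * Dv i t x j) ≤ |a * b * Dv i t x j| := neg_le_abs _
          _ = |a * b| * |Dv i t x j| := abs_mul _ _
          _ ≤ ((a ^ 2 + b ^ 2) / 2) * M := by
              apply mul_le_mul _ hab (abs_nonneg _) (by positivity)
              rw [abs_le]; constructor <;> nlinarith [sq_nonneg (a + b), sq_nonneg (a - b)]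
          _ = _ := by ring
      have hsum := Finset.sum_le_sum (s := (Finset.univ : Finset (Fin 3))) fun i _ =>
        Finset.sum_le_sum (s := (Finset.univ : Finset (Fin 3))) fun j _ => term i j
      simp only [Fin.sum_univ_three] at hsum ⊢
      nlinarith [hsum]
    linarith
  calc ∫ x in Icc (0 : V) 1, ∑ j, 2 * ((u t x j - v t x j) * (ut t x j - vt t x j))
      ≤ ∫ x in Icc (0 : V) 1, (-2 * ∑ i, G' i x + 6 * M * ∑ j, (u t x j - v t x j) ^ 2) := by
        apply setIntegral_mono_on _ _ measurableSet_Icc point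
        · apply Continuous.integrableOn_Icc; fun_prop
        · apply Continuous.integrableOn_Icc; fun_prop
    _ = (-2 * ∑ i, ∫ x in Icc (0 : V) 1, G' i x)
        + 6 * M * ∫ x in Icc (0 : V) 1, ∑ j, (u t x j - v t x j) ^ 2 := by
        rw [integral_add, integral_const_mul, integral_const_mul, integral_finsetSum]
        · intro i _; exact (cG' i).integrableOn_Icc
        · exact Continuous.integrableOn_Icc (by fun_prop)
        · exact Continuous.integrableOn_Icc (by fun_prop)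
    _ = _ := by simp [iG]

theorem exists_bound (k : CS ν f T v q vt Dv DDv Dq) :
    ∃ M : ℝ, ∀ t ∈ Icc 0 T, ∀ x ∈ Icc (0 : V) 1, ∀ i j, |Dv i t x j| ≤ M := by
  have hK : IsCompact (Icc (0:ℝ) T ×ˢ Icc (0 : V) 1) := isCompact_Icc.prod isCompact_Icc
  have h1 : ∀ i : Fin 3, ∃ C, ∀ z ∈ Icc (0:ℝ) T ×ˢ Icc (0 : V) 1, ‖Dv i z.1 z.2‖ ≤ C := fun i =>
    hK.exists_bound_of_continuousOn ((k.cDu i).mono (prod_mono le_rfl (subset_univ _)))
  choose C hC using h1
  refine ⟨∑ i, |C i|, fun t ht x hx i j => ?_⟩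
  calc |Dv i t x j| = ‖Dv i t x j‖ := rfl
    _ ≤ ‖Dv i t x‖ := norm_le_pi_norm _ j
    _ ≤ C i := hC i (t, x) ⟨ht, hx⟩
    _ ≤ |C i| := le_abs_self _
    _ ≤ ∑ i, |C i| := Finset.single_le_sum (f := fun i => |C i|) (fun _ _ => abs_nonneg _)
        (Finset.mem_univ i)

/-- The energy of the difference vanishes. -/
theorem energy_zero (h : CS ν f T u p ut Du DDu Dp) (k : CS ν f T v q vt Dv DDv Dq)
    (hν : 0 ≤ ν) {t : ℝ} (ht : t ∈ Icc 0 T) :
    ∫ x in Icc (0 : V) 1, ∑ j, (u t x j - v t x j) ^ 2 = 0 := by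
  obtain ⟨M, hM⟩ := exists_bound k
  have hT : 0 ≤ T := ht.1.trans ht.2
  set g : ℝ → V → ℝ := fun s x => ∑ j, 2 * ((u s x j - v s x j) * (ut s x j - vt s x j)) with hg
  set e : ℝ → V → ℝ := fun s x => ∑ j, (u s x j - v s x j) ^ 2 with he
  set H : ℝ → ℝ := fun s => ∫ x in Icc (0 : V) 1, g s x with hH
  set E : ℝ → ℝ := fun s => ∫ x in Icc (0 : V) 1, e s x with hE
  have cg : ContinuousOn (fun z : ℝ × V => g z.1 z.2) (Icc 0 T ×ˢ univ) := by
    have h1 := h.cu; have h2 := k.cu; have h3 := h.cut; have h4 := k.cut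
    simp only [hg]
    refine continuousOn_finsetSum _ fun j _ => ?_
    exact continuousOn_const.mul ((((continuousOn_pi.1 h1) j).sub ((continuousOn_pi.1 h2) j)).mul
      (((continuousOn_pi.1 h3) j).sub ((continuousOn_pi.1 h4) j)))
  have hder : ∀ s ∈ Icc 0 T, ∀ x, HasDerivWithinAt (fun r => e r x) (g s x) (Icc 0 T) s := by
    intro s hs x
    have h1 := hasDerivWithinAt_pi.1 (h.dt s hs x)
    have h2 := hasDerivWithinAt_pi.1 (k.dt s hs x)
    have h3 := HasDerivWithinAt.fun_sum (u := Finset.univ) fun j _ => ((h1 j).fun_sub (h2 j)).fun_pow 2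
    refine h3.congr_deriv ?_
    simp only [hg]
    refine Finset.sum_congr rfl fun j _ => ?_
    push_cast; ring
  have e0 : ∀ x, e 0 x = 0 := by
    intro x; simp [he, h.init, k.init]
  have ftc : ∀ s ∈ Icc 0 T, ∀ x, e s x = ∫ r in (0:ℝ)..s, g r x := by
    intro s hs x
    have hsub : Icc 0 s ⊆ Icc 0 T := Icc_subset_Icc le_rfl hs.2
    rw [intervalIntegral.integral_eq_sub_of_hasDerivAt_of_le hs.1 (f := fun r => e r x)]
    · rw [e0, sub_zero]
    · exact fun r hr => ((hder r (hsub hr) x).continuousWithinAt).mono hsub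
    · intro r hr
      exact (hder r (hsub (Ioo_subset_Icc_self hr)) x).hasDerivAt
        (Icc_mem_nhds hr.1 (hr.2.trans_le hs.2))
    · apply ContinuousOn.intervalIntegrable
      rw [uIcc_of_le hs.1]
      exact (tslice cg x).mono hsub
  have iprod : ∀ s ∈ Icc 0 T, Integrable (fun z : V × ℝ => g z.2 z.1)
      ((volume.restrict (Icc (0 : V) 1)).prod (volume.restrict (Ioc 0 s))) := by
    intro s hs
    rw [Measure.prod_restrict]
    have h1 : IntegrableOn (fun z : V × ℝ => g z.2 z.1) (Icc (0:V) 1 ×ˢ Icc 0 T)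
        (volume.prod volume) := by
      apply ContinuousOn.integrableOn_compact (isCompact_Icc.prod isCompact_Icc)
      exact cg.comp (f := fun z : V × ℝ => (z.2, z.1)) (by fun_prop)
        fun z hz => ⟨hz.2, mem_univ _⟩
    exact h1.mono_set (prod_mono le_rfl (Ioc_subset_Icc_self.trans (Icc_subset_Icc le_rfl hs.2)))
  have Eint : ∀ s ∈ Icc 0 T, E s = ∫ r in (0:ℝ)..s, H r := by
    intro s hs
    simp only [hE, hH]
    rw [intervalIntegral.integral_of_le hs.1, integral_integral_swap]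
    · refine setIntegral_congr_fun measurableSet_Icc fun x _ => ?_
      simp only [ftc s hs x]
      rw [intervalIntegral.integral_of_le hs.1]
    · exact (iprod s hs).swap
  have Hint : IntervalIntegrable H volume 0 T := by
    rw [intervalIntegrable_iff_integrableOn_Ioc_of_le hT]
    exact (iprod T ⟨hT, le_rfl⟩).swap.integral_prod_left
  have Econt : ContinuousOn E (Icc 0 T) := by
    have h1 : ContinuousOn (fun s => ∫ r in (0:ℝ)..s, H r) (Icc 0 T) := by
      have := intervalIntegral.continuousOn_primitive_interval' Hint (a := 0) (b₁ := 0) (b₂ := T)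
        (by simp)
      rwa [uIcc_of_le hT] at this
    exact h1.congr Eint
  have Enn : ∀ s, 0 ≤ E s := fun s =>
    integral_nonneg fun x => Finset.sum_nonneg fun j _ => sq_nonneg _
  have HE : ∀ s ∈ Icc 0 T, H s ≤ 6 * M * E s := fun s hs => energy_space h k hν hM hs
  have EI : ∀ s ∈ Icc 0 T, IntervalIntegrable E volume 0 s := by
    intro s hs
    apply ContinuousOn.intervalIntegrable
    rw [uIcc_of_le hs.1]
    exact Econt.mono (Icc_subset_Icc le_rfl hs.2)
  have M0 : 0 ≤ M := (abs_nonneg _).trans (hM 0 ⟨le_rfl, hT⟩ 0 ⟨le_rfl, zero_le_one⟩ 0 0)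
  have Ele : ∀ s ∈ Icc 0 T, E s ≤ 6 * M * ∫ r in (0:ℝ)..s, E r := by
    intro s hs
    rw [Eint s hs, ← intervalIntegral.integral_const_mul]
    apply intervalIntegral.integral_mono_on hs.1
    · exact Hint.mono_set (by rw [uIcc_of_le hs.1, uIcc_of_le hT]; exact Icc_subset_Icc le_rfl hs.2)
    · exact (EI s hs).const_mul _
    · exact fun r hr => HE r ⟨hr.1, hr.2.trans hs.2⟩
  set P : ℝ → ℝ := fun s => ∫ r in (0:ℝ)..s, E r with hP
  have Pc : ContinuousOn P (Icc 0 T) := by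
    have := intervalIntegral.continuousOn_primitive_interval' (EI T ⟨hT, le_rfl⟩)
      (a := 0) (b₁ := 0) (b₂ := T) (by simp)
    rwa [uIcc_of_le hT] at this
  have Pd : ∀ s ∈ Ico 0 T, HasDerivWithinAt P (E s) (Ici s) s := by
    intro s hs
    have hs' : s ∈ Icc 0 T := Ico_subset_Icc_self hs
    have hmem : Icc 0 T ∈ nhdsWithin s (Ioi s) :=
      Filter.mem_of_superset (Ioc_mem_nhdsGT hs.2) fun r hr => ⟨hs.1.trans hr.1.le, hr.2⟩
    exact intervalIntegral.integral_hasDerivWithinAt_right (EI s hs') (s := Ici s) (t := Ioi s)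
      ⟨Icc 0 T, hmem, Econt.aestronglyMeasurable measurableSet_Icc⟩
      ((Econt s hs').mono_of_mem_nhdsWithin hmem)
  have Pn : ∀ s ∈ Icc 0 T, 0 ≤ P s := fun s hs => intervalIntegral.integral_nonneg hs.1 fun r _ => Enn r
  have gr := norm_le_gronwallBound_of_norm_deriv_right_le (f := P) (f' := E) (δ := 0)
    (K := 6 * M) (ε := 0) (a := 0) (b := T) Pc Pd (by simp [hP]) (fun s hs => by
      rw [Real.norm_of_nonneg (Enn s), Real.norm_of_nonneg (Pn s (Ico_subset_Icc_self hs)), add_zero]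
      exact Ele s (Ico_subset_Icc_self hs)) t ht
  have Pt : P t = 0 := by
    have h1 : gronwallBound 0 (6 * M) 0 (t - 0) = 0 := by
      rw [gronwallBound_ε0]; simp
    rw [h1] at gr
    exact norm_eq_zero.1 (le_antisymm gr (norm_nonneg _))
  have := Ele t ht
  have h2 : E t ≤ 0 := by
    have h3 : ∫ r in (0:ℝ)..t, E r = 0 := Pt
    rw [h3, mul_zero] at this
    exact this
  exact le_antisymm h2 (Enn t)

end CS

end Vale.Agent.P113.R2.H813
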